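import Vale.Agent.P296Z.Core

/-!
# P296: Griffiths' conjecture is false, for smooth projective varieties and ample bundles

The variety is a compact connected complex manifold embedded in a projective space as a nonsingular
algebraic set, the bundle is a holomorphic vector bundle of Mathlib, and ample means that some
`O(m)` on `ℙ(E)` is very ample.
-/

open Vale.Agent.P296Z

theorem Vale.Agent.Results.P296.AGriffithsFalse.result :
    (¬ ∀ n r : ℕ, GriffithsConjecture n r) ∧ ∀ r : ℕ, 2 ≤ r → ¬ GriffithsConjecture 2 r := by
  refine ⟨fun h => not_griffiths 0 (h _ _), fun r hr => ?_⟩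
  obtain ⟨s, rfl⟩ := Nat.exists_eq_add_of_le hr
  exact not_griffiths s
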